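import Mathlib

/-!
# A finite minimax lemma

If `F` is a convex set of real functions on a finite nonempty type `X` and every `f ∈ F`
is `≤ 0` somewhere, then a single probability vector `p` on `X` has `∑ x, p x * f x ≤ 0`
for all `f ∈ F`.  Proof: separate `F` from the open cone of strictly positive functions.
-/

namespace Vale.Agent.Helper3

open Finset

theorem finite_minimax {X : Type*} [Fintype X] [Nonempty X] (F : Set (X → ℝ))
    (hF : Convex ℝ F) (h : ∀ f ∈ F, ∃ x, f x ≤ 0) :
    ∃ p : X → ℝ, (∀ x, 0 ≤ p x) ∧ ∑ x, p x = 1 ∧ ∀ f ∈ F, ∑ x, p x * f x ≤ 0 := by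
  classical
  by_cases hne : F.Nonempty
  swap
  · -- empty `F`: any distribution works
    obtain ⟨x0⟩ := ‹Nonempty X›
    refine ⟨fun x => if x = x0 then 1 else 0, fun x => by dsimp only; split_ifs <;> norm_num, by simp, ?_⟩
    intro f hf
    exact absurd ⟨f, hf⟩ hne
  obtain ⟨f0, hf0⟩ := hne
  -- the open convex cone of strictly positive functions
  set S : Set (X → ℝ) := {g | ∀ x, 0 < g x} with hS
  have hSconv : Convex ℝ S := by
    intro a ha b hb s t hs ht hst x
    have h1 := ha x
    have h2 := hb x
    simp only [Pi.add_apply, Pi.smul_apply, smul_eq_mul]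
    rcases hs.eq_or_lt with h0 | h0
    · have : t = 1 := by linarith
      subst this
      rw [← h0]
      simpa using h2
    · have : 0 ≤ t * b x := mul_nonneg ht h2.le
      have : 0 < s * a x := mul_pos h0 h1
      linarith
  have hSopen : IsOpen S := by
    have : S = ⋂ x : X, {g : X → ℝ | 0 < g x} := by
      ext g
      simp [hS]
    rw [this]
    exact isOpen_iInter_of_finite fun x => isOpen_lt continuous_const (continuous_apply x)
  have hdisj : Disjoint S F := by
    rw [Set.disjoint_left]
    intro g hg hgF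
    obtain ⟨x, hx⟩ := h g hgF
    exact absurd (hg x) (not_lt.mpr hx)
  obtain ⟨φ, u, hφS, hφF⟩ := geometric_hahn_banach_open hSconv hSopen hF hdisj
  -- `φ ≤ 0` on the cone
  have hcone : ∀ g ∈ S, ∀ t : ℝ, 0 < t → t * φ g < u := by
    intro g hg t ht
    have : t • g ∈ S := fun x => by
      simp only [Pi.smul_apply, smul_eq_mul]
      exact mul_pos ht (hg x)
    have := hφS _ this
    simpa using this
  have hnonpos : ∀ g ∈ S, φ g ≤ 0 := by
    intro g hg
    by_contra hpos
    replace hpos := not_le.mp hpos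
    have := hcone g hg ((|u| + 1) / φ g) (by positivity)
    rw [div_mul_cancel₀ _ hpos.ne'] at this
    have := le_abs_self u
    linarith
  have hone : (fun _ : X => (1 : ℝ)) ∈ S := fun _ => one_pos
  have hu : 0 ≤ u := by
    by_contra hneg
    replace hneg := not_le.mp hneg
    have h1 := hnonpos _ hone
    rcases h1.eq_or_lt with h0 | h0
    · have := hcone _ hone 1 one_pos
      rw [h0] at this
      linarith
    · have := hcone _ hone (u / φ (fun _ : X => (1 : ℝ))) (div_pos_of_neg_of_neg hneg h0)
      rw [div_mul_cancel₀ _ h0.ne] at this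
      exact lt_irrefl _ this
  -- basis vectors
  set e : X → X → ℝ := fun x => fun j => if x = j then 1 else 0 with he
  have hebasis : ∀ x, φ (e x) ≤ 0 := by
    intro x
    by_contra hpos
    replace hpos := not_le.mp hpos
    set c := φ (fun _ : X => (1 : ℝ)) with hc
    have hc0 : c ≤ 0 := hnonpos _ hone
    set ε : ℝ := φ (e x) / (2 * (|c| + 1)) with hε
    have hεpos : 0 < ε := by positivity
    have hmem : e x + ε • (fun _ : X => (1 : ℝ)) ∈ S := by
      intro j
      simp only [Pi.add_apply, Pi.smul_apply, smul_eq_mul, mul_one, he]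
      split_ifs <;> linarith
    have := hnonpos _ hmem
    rw [map_add, map_smul, smul_eq_mul, ← hc] at this
    have habs : |c| = -c := abs_of_nonpos hc0
    have h2 : ε * (2 * (|c| + 1)) = φ (e x) := by
      rw [hε]; field_simp
    nlinarith
  have hexpand : ∀ f : X → ℝ, φ f = ∑ x, f x * φ (e x) := by
    intro f
    have := LinearMap.pi_apply_eq_sum_univ (φ : (X → ℝ) →ₗ[ℝ] ℝ) f
    simpa [he, smul_eq_mul] using this
  set q : X → ℝ := fun x => -φ (e x) with hq
  have hq0 : ∀ x, 0 ≤ q x := fun x => by simp only [hq]; linarith [hebasis x]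
  have hφq : ∀ f : X → ℝ, φ f = -∑ x, q x * f x := by
    intro f
    rw [hexpand f, ← Finset.sum_neg_distrib]
    refine Finset.sum_congr rfl fun x _ => ?_
    simp only [hq]; ring
  set Q : ℝ := ∑ x, q x with hQ
  have hQpos : 0 < Q := by
    have hQ0 : 0 ≤ Q := Finset.sum_nonneg fun x _ => hq0 x
    rcases hQ0.eq_or_lt with h0 | h0
    · exfalso
      have hall : ∀ x, q x = 0 := by
        intro x
        have := (Finset.sum_eq_zero_iff_of_nonneg (fun x _ => hq0 x)).mp h0.symm x (mem_univ x)
        exact this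
      have hzero : ∀ f : X → ℝ, φ f = 0 := by
        intro f
        rw [hφq f]
        simp [hall]
      have h1 := hφS _ hone
      have h2 := hφF _ hf0
      rw [hzero] at h1 h2
      linarith
    · exact h0
  refine ⟨fun x => q x / Q, fun x => div_nonneg (hq0 x) hQpos.le, ?_, ?_⟩
  · rw [← Finset.sum_div, div_self hQpos.ne']
  · intro f hf
    have h1 := hφF f hf
    rw [hφq f] at h1
    have h2 : ∑ x, q x / Q * f x = (∑ x, q x * f x) / Q := by
      rw [Finset.sum_div]
      refine Finset.sum_congr rfl fun x _ => ?_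
      ring
    rw [h2]
    apply div_nonpos_of_nonpos_of_nonneg _ hQpos.le
    linarith

/-- Indexed form: if every finite convex combination of the test functions `T i` is `≤ 0`
somewhere, one probability vector works for all `T i` at once. -/
theorem finite_minimax_family {X ι : Type*} [Fintype X] [Nonempty X] (T : ι → X → ℝ)
    (h : ∀ f ∈ convexHull ℝ (Set.range T), ∃ x, f x ≤ 0) :
    ∃ p : X → ℝ, (∀ x, 0 ≤ p x) ∧ ∑ x, p x = 1 ∧ ∀ i, ∑ x, p x * T i x ≤ 0 := by
  obtain ⟨p, hp0, hp1, hp⟩ := finite_minimax (convexHull ℝ (Set.range T)) (convex_convexHull ℝ _) h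
  exact ⟨p, hp0, hp1, fun i => hp _ (subset_convexHull ℝ _ ⟨i, rfl⟩)⟩

/-- Cone form: if the set of test functions is closed under addition and under multiplication by
nonnegative reals, and every test function is `≤ 0` somewhere, one probability vector works for
all of them. -/
theorem finite_minimax_cone {X : Type*} [Fintype X] [Nonempty X] (F : Set (X → ℝ))
    (hadd : ∀ f ∈ F, ∀ g ∈ F, f + g ∈ F) (hsmul : ∀ c : ℝ, 0 ≤ c → ∀ f ∈ F, c • f ∈ F)
    (h : ∀ f ∈ F, ∃ x, f x ≤ 0) :
    ∃ p : X → ℝ, (∀ x, 0 ≤ p x) ∧ ∑ x, p x = 1 ∧ ∀ f ∈ F, ∑ x, p x * f x ≤ 0 := by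
  refine finite_minimax F ?_ h
  intro a ha b hb s t hs ht _
  exact hadd _ (hsmul s hs a ha) _ (hsmul t ht b hb)

end Vale.Agent.Helper3
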