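import Vale.Agent.Results.P013.SmallReciprocalSum

/-!
# P013: a product inequality for Jacobsthal's function

If every `J` consecutive integers contain one coprime to `n₁`, then among any `J * m`
consecutive integers there are `m` integers coprime to `n₁`, one in each block of length `J`;
a prime `p` divides at most `⌈J m / p⌉` of the `J * m` integers.  So if the primes dividing `n₂`
cannot account for `m` integers, one of the `J * m` integers is coprime to `n₁ * n₂`.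
-/

namespace Vale.Agent.Helper3.JacobsthalProduct

open Finset Vale.Agent.Results.P013.SmallReciprocalSum

/-- Integer form: if `∑_{p ∣ n₂} ⌈J m / p⌉ < m`, every `J * m` consecutive integers contain one
coprime to `n₁ * n₂`. -/
theorem product_int (n₁ n₂ J : ℕ) (hn₂ : 0 < n₂)
    (hJ : ∀ a : ℤ, ∃ i : ℕ, i < J ∧ IsCoprime (a + (i : ℤ)) (n₁ : ℤ))
    (m : ℕ) (hm : ∑ p ∈ n₂.primeFactors, (J * m + p - 1) / p < m) (a : ℤ) :
    ∃ i : ℕ, i < J * m ∧ IsCoprime (a + (i : ℤ)) ((n₁ : ℤ) * (n₂ : ℤ)) := by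
  classical
  by_contra hcon
  push Not at hcon
  -- one integer coprime to `n₁` in each block
  have hblock : ∀ t : ℕ, ∃ i : ℕ, i < J ∧ IsCoprime (a + ((J * t + i : ℕ) : ℤ)) (n₁ : ℤ) := by
    intro t
    obtain ⟨i, hi, hc⟩ := hJ (a + ((J * t : ℕ) : ℤ))
    refine ⟨i, hi, ?_⟩
    have : a + ((J * t + i : ℕ) : ℤ) = a + ((J * t : ℕ) : ℤ) + (i : ℤ) := by push_cast; ring
    rw [this]; exact hc
  choose f hf hfc using hblock
  set g : ℕ → ℕ := fun t => J * t + f t with hg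
  have hginj : Set.InjOn g (Finset.range m : Set ℕ) := by
    intro t _ t' _ h
    simp only [hg] at h
    have h1 := hf t
    have h2 := hf t'
    by_contra hne
    rcases Nat.lt_or_gt_of_ne hne with hlt | hlt
    · have : J * (t + 1) ≤ J * t' := Nat.mul_le_mul_left J hlt
      have h3 : J * (t + 1) = J * t + J := by ring
      omega
    · have : J * (t' + 1) ≤ J * t := Nat.mul_le_mul_left J hlt
      have h3 : J * (t' + 1) = J * t' + J := by ring
      omega
  have hgran : ∀ t ∈ Finset.range m, g t < J * m := by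
    intro t ht
    rw [Finset.mem_range] at ht
    have h1 := hf t
    have : J * (t + 1) ≤ J * m := Nat.mul_le_mul_left J ht
    have h3 : J * (t + 1) = J * t + J := by ring
    simp only [hg]
    omega
  have hcover : (Finset.range m).image g ⊆ n₂.primeFactors.biUnion
      (fun p => (Finset.range (J * m)).filter (fun i : ℕ => (p : ℤ) ∣ a + (i : ℤ))) := by
    intro i hi
    rw [Finset.mem_image] at hi
    obtain ⟨t, ht, rfl⟩ := hi
    have hlt := hgran t ht
    have hnc := hcon (g t) hlt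
    have hc1 : IsCoprime (a + ((g t : ℕ) : ℤ)) (n₁ : ℤ) := hfc t
    have hnc2 : ¬ IsCoprime (a + ((g t : ℕ) : ℤ)) (n₂ : ℤ) := by
      intro hc2
      apply hnc
      exact IsCoprime.mul_right hc1 hc2
    rw [Int.isCoprime_iff_gcd_eq_one] at hnc2
    obtain ⟨p, hp, hpd⟩ := Nat.exists_prime_and_dvd hnc2
    have h1 : (p : ℤ) ∣ a + ((g t : ℕ) : ℤ) := by
      have := Int.gcd_dvd_left (a + ((g t : ℕ) : ℤ)) (n₂ : ℤ)
      exact (Int.natCast_dvd_natCast.mpr hpd).trans this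
    have h2 : (p : ℤ) ∣ (n₂ : ℤ) := by
      have := Int.gcd_dvd_right (a + ((g t : ℕ) : ℤ)) (n₂ : ℤ)
      exact (Int.natCast_dvd_natCast.mpr hpd).trans this
    have h3 : p ∣ n₂ := Int.natCast_dvd_natCast.mp h2
    rw [Finset.mem_biUnion]
    refine ⟨p, ?_, ?_⟩
    · rw [Nat.mem_primeFactors]; exact ⟨hp, h3, by omega⟩
    · rw [Finset.mem_filter, Finset.mem_range]; exact ⟨hlt, h1⟩
  have hcard : ((Finset.range m).image g).card = m := by
    rw [Finset.card_image_of_injOn hginj, Finset.card_range]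
  have : m ≤ ∑ p ∈ n₂.primeFactors, (J * m + p - 1) / p := by
    calc m = ((Finset.range m).image g).card := hcard.symm
      _ ≤ _ := Finset.card_le_card hcover
      _ ≤ ∑ p ∈ n₂.primeFactors,
            ((Finset.range (J * m)).filter (fun i : ℕ => (p : ℤ) ∣ a + (i : ℤ))).card :=
          Finset.card_biUnion_le
      _ ≤ _ := by
          apply Finset.sum_le_sum
          intro p hp
          exact card_dvd_le p (Nat.pos_of_mem_primeFactors hp) a (J * m)
  omega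

/-- Reciprocal-sum form. -/
theorem product_real (n₁ n₂ J : ℕ) (hn₂ : 0 < n₂)
    (hJ : ∀ a : ℤ, ∃ i : ℕ, i < J ∧ IsCoprime (a + (i : ℤ)) (n₁ : ℤ))
    (hσ : (J : ℝ) * ∑ p ∈ n₂.primeFactors, (1 / (p : ℝ)) < 1) (m : ℕ)
    (hm : ((n₂.primeFactors.card : ℝ) - ∑ p ∈ n₂.primeFactors, (1 / (p : ℝ))) /
      (1 - (J : ℝ) * ∑ p ∈ n₂.primeFactors, (1 / (p : ℝ))) < (m : ℝ)) (a : ℤ) :
    ∃ i : ℕ, i < J * m ∧ IsCoprime (a + (i : ℤ)) ((n₁ : ℤ) * (n₂ : ℤ)) := by
  apply product_int n₁ n₂ J hn₂ hJ m ?_ a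
  have h2 : ((∑ p ∈ n₂.primeFactors, (J * m + p - 1) / p : ℕ) : ℝ) ≤
      ∑ p ∈ n₂.primeFactors, (((J : ℝ) * (m : ℝ)) * (1 / (p : ℝ)) + 1 - 1 / (p : ℝ)) := by
    push_cast
    apply Finset.sum_le_sum
    intro p hp
    have hp0 : 0 < p := Nat.pos_of_mem_primeFactors hp
    have hp0' : (0 : ℝ) < (p : ℝ) := by exact_mod_cast hp0
    have h3 : (((J * m + p - 1) / p : ℕ) : ℝ) ≤ ((J * m + p - 1 : ℕ) : ℝ) / (p : ℝ) :=
      Nat.cast_div_le
    have h4 : ((J * m + p - 1 : ℕ) : ℝ) = (J : ℝ) * (m : ℝ) + (p : ℝ) - 1 := by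
      rw [Nat.cast_sub (by omega)]; push_cast; ring
    rw [h4] at h3
    have h5 : ((J : ℝ) * (m : ℝ) + (p : ℝ) - 1) / (p : ℝ)
        = ((J : ℝ) * (m : ℝ)) * (1 / (p : ℝ)) + 1 - 1 / (p : ℝ) := by
      field_simp
    rw [h5] at h3
    exact h3
  have h6 : ∑ p ∈ n₂.primeFactors, (((J : ℝ) * (m : ℝ)) * (1 / (p : ℝ)) + 1 - 1 / (p : ℝ)) =
      ((J : ℝ) * (m : ℝ)) * (∑ p ∈ n₂.primeFactors, (1 / (p : ℝ))) + (n₂.primeFactors.card : ℝ)
        - ∑ p ∈ n₂.primeFactors, (1 / (p : ℝ)) := by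
    rw [Finset.sum_sub_distrib, Finset.sum_add_distrib, ← Finset.mul_sum]
    simp
  set s : ℝ := ∑ p ∈ n₂.primeFactors, (1 / (p : ℝ)) with hs
  have hpos : 0 < 1 - (J : ℝ) * s := by linarith
  rw [div_lt_iff₀ hpos] at hm
  have h7 : ((∑ p ∈ n₂.primeFactors, (J * m + p - 1) / p : ℕ) : ℝ) < (m : ℝ) := by
    calc ((∑ p ∈ n₂.primeFactors, (J * m + p - 1) / p : ℕ) : ℝ)
        ≤ ((J : ℝ) * (m : ℝ)) * s + (n₂.primeFactors.card : ℝ) - s := by rw [← h6]; exact h2
      _ < (m : ℝ) := by nlinarith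
  exact_mod_cast h7

/-- Large primes: if every prime dividing `n₂` is at least `J * (ω(n₂) + 1)`, every
`J * (ω(n₂) + 1)` consecutive integers contain one coprime to `n₁ * n₂`. -/
theorem product_large (n₁ n₂ J : ℕ) (hn₂ : 0 < n₂)
    (hJ : ∀ a : ℤ, ∃ i : ℕ, i < J ∧ IsCoprime (a + (i : ℤ)) (n₁ : ℤ))
    (hp : ∀ p ∈ n₂.primeFactors, J * (n₂.primeFactors.card + 1) ≤ p) (a : ℤ) :
    ∃ i : ℕ, i < J * (n₂.primeFactors.card + 1) ∧
      IsCoprime (a + (i : ℤ)) ((n₁ : ℤ) * (n₂ : ℤ)) := by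
  apply product_int n₁ n₂ J hn₂ hJ (n₂.primeFactors.card + 1) ?_ a
  have h1 : ∑ p ∈ n₂.primeFactors, (J * (n₂.primeFactors.card + 1) + p - 1) / p
      ≤ ∑ _p ∈ n₂.primeFactors, 1 := by
    apply Finset.sum_le_sum
    intro p hpm
    have hp0 : 0 < p := Nat.pos_of_mem_primeFactors hpm
    have hle := hp p hpm
    rw [Nat.div_le_iff_le_mul_add_pred hp0]
    omega
  have h2 : ∑ _p ∈ n₂.primeFactors, 1 = n₂.primeFactors.card := by simp
  omega

end Vale.Agent.Helper3.JacobsthalProduct
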