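import Vale.Agent.Helper8.KK.Connected

/-!
P064: the two minima defining the expectation threshold `p_E(n,H)` and the fractional
expectation threshold of the problem file are attained (helper lemmas for the hand-in
`P064.FractionalExpectationBound`).
-/

namespace Vale.Agent.Helper3.KKLeast

open SimpleGraph

/-- A subset of `[0,1]` cut out by finitely or infinitely many conditions of the form
`a F ≤ c F * p ^ e F`, which contains `1`, has a least element. -/
theorem exists_isLeast_of_conditions {ι : Type*} (P : ι → Prop) (a c : ι → ℝ) (e : ι → ℕ)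
    (h1 : ∀ i, P i → a i ≤ c i) :
    ∃ p0 : ℝ, IsLeast {p : ℝ | 0 ≤ p ∧ p ≤ 1 ∧ ∀ i, P i → a i ≤ c i * p ^ e i} p0 := by
  have hset : {p : ℝ | 0 ≤ p ∧ p ≤ 1 ∧ ∀ i, P i → a i ≤ c i * p ^ e i}
      = Set.Icc (0:ℝ) 1 ∩ ⋂ i, {p : ℝ | P i → a i ≤ c i * p ^ e i} := by
    ext p
    simp only [Set.mem_ofPred_eq, Set.mem_inter_iff, Set.mem_Icc, Set.mem_iInter]
    tauto
  have hclosed : IsClosed (⋂ i, {p : ℝ | P i → a i ≤ c i * p ^ e i}) := by
    apply isClosed_iInter
    intro i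
    by_cases hP : P i
    · have : {p : ℝ | P i → a i ≤ c i * p ^ e i} = {p : ℝ | a i ≤ c i * p ^ e i} := by
        ext p
        simp [hP]
      rw [this]
      exact isClosed_le continuous_const (by fun_prop)
    · have : {p : ℝ | P i → a i ≤ c i * p ^ e i} = Set.univ := by
        ext p
        simp [hP]
      rw [this]
      exact isClosed_univ
  have hcompact : IsCompact {p : ℝ | 0 ≤ p ∧ p ≤ 1 ∧ ∀ i, P i → a i ≤ c i * p ^ e i} := by
    rw [hset]
    exact isCompact_Icc.inter_right hclosed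
  have hne : {p : ℝ | 0 ≤ p ∧ p ≤ 1 ∧ ∀ i, P i → a i ≤ c i * p ^ e i}.Nonempty := by
    refine ⟨1, zero_le_one, le_rfl, fun i hi => ?_⟩
    simpa using h1 i hi
  exact hcompact.exists_isLeast hne

/-- The minimum defining `p_E(n,H)` is attained. -/
theorem exists_isLeast_pE (n : ℕ) (H : SimpleGraph (Fin n)) :
    ∃ pE : ℝ, IsLeast {p : ℝ | 0 ≤ p ∧ p ≤ 1 ∧ ∀ F : SimpleGraph (Fin n), F ≤ H →
      1 / 2 ≤ ((⊤ : SimpleGraph (Fin n)).copyCount F : ℝ) * p ^ F.edgeSet.ncard} pE := by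
  apply exists_isLeast_of_conditions (fun F : SimpleGraph (Fin n) => F ≤ H) (fun _ => 1 / 2)
    (fun F => ((⊤ : SimpleGraph (Fin n)).copyCount F : ℝ)) (fun F => F.edgeSet.ncard)
  intro F _
  have hpos : 0 < (⊤ : SimpleGraph (Fin n)).copyCount F :=
    copyCount_pos.2 (IsContained.of_le le_top)
  have h1 : (1:ℝ) ≤ ((⊤ : SimpleGraph (Fin n)).copyCount F : ℝ) := by exact_mod_cast hpos
  linarith

/-- The minimum defining the fractional expectation threshold is attained. -/
theorem exists_isLeast_pEt (n : ℕ) (H : SimpleGraph (Fin n)) :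
    ∃ pEt : ℝ, IsLeast {p : ℝ | 0 ≤ p ∧ p ≤ 1 ∧ ∀ F : SimpleGraph (Fin n), F ≤ H →
      (H.copyCount F : ℝ) / 2 ≤
        ((⊤ : SimpleGraph (Fin n)).copyCount F : ℝ) * p ^ F.edgeSet.ncard} pEt := by
  apply exists_isLeast_of_conditions (fun F : SimpleGraph (Fin n) => F ≤ H)
    (fun F => (H.copyCount F : ℝ) / 2)
    (fun F => ((⊤ : SimpleGraph (Fin n)).copyCount F : ℝ)) (fun F => F.edgeSet.ncard)
  intro F _
  have hmono : (H.copyCount F : ℝ) ≤ ((⊤ : SimpleGraph (Fin n)).copyCount F : ℝ) := by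
    exact_mod_cast Vale.Agent.Helper8.KK.copyCount_mono' (le_top : H ≤ ⊤) F
  have h0 : (0:ℝ) ≤ (H.copyCount F : ℝ) := Nat.cast_nonneg _
  linarith

end Vale.Agent.Helper3.KKLeast
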